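import Vale.Agent.P287Z.S2B
import Vale.Agent.P287Z.N.Fin

/-!
Kuznetsov's conjecture, the direction from the derived category to rationality, for all smooth
cubic fourfolds which contain a plane.
-/

open CategoryTheory AlgebraicGeometry MvPolynomial Vale.Agent.P294Z Vale.Agent.P287Z

universe w w'

theorem Vale.Agent.Results.P287.AAKuPlaneAll.result (F : MvPolynomial (Fin 6) ℂ)
    [Fact (F.IsHomogeneous 3)] (hs : IsSmoothForm F) (W : Submodule ℂ (Fin 6 → ℂ))
    (h3 : Module.finrank ℂ W = 3) (hW : ∀ z ∈ W, eval z F = 0)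
    {ν : ℕ} (I : Ideal (MvPolynomial (Fin ν) ℂ)) [Fact (IsHom I)]
    (hI : 1 ≤ topologicalKrullDim (PI I))
    [HasDerivedCategory.{w} (Coh (PI I))] [HasDerivedCategory.{w'} (Coh (PI (Ideal.span {F})))] :
    (∃ L, Tw (Ideal.span {F}) L) ∧ ∀ L, Tw (Ideal.span {F}) L →
      KuEmb (PI I) (PI (Ideal.span {F})) L → IsRationalForm F :=
  S2.of_thmP I N.thmP F hs W h3 hW hI
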